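import Vale.Agent.P118.OS.Flag

/-!
# P065, upper bound: the flag theorem with constants uniform in `κ` (helper65)

`P118.OS.StFlag` gives `c, δ₀` depending on `κ`; by compactness one may take them uniform for
`κ` in a compact subinterval of `(m, m + 1)`.
-/

set_option autoImplicit false

namespace Vale.Agent.P065.H65

open Set
open Vale.Agent.P118 (OF.Cov OF.Sep)
open Vale.Agent.P118.OS

theorem cov_mono {V : Type*} [PseudoMetricSpace V] {r N N' : ℝ} {S : Set V}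
    (h : Vale.Agent.P118.OF.Cov r N S) (hN : N ≤ N') : Vale.Agent.P118.OF.Cov r N' S := by
  obtain ⟨X, h1, h2⟩ := h
  exact ⟨X, h1.trans hN, h2⟩

theorem pack_mono {V : Type*} [PseudoMetricSpace V] {r N N' : ℝ} {S : Set V}
    (h : Pack r N S) (hN : N' ≤ N) : Pack r N' S := by
  obtain ⟨X, h1, h2, h3⟩ := h
  exact ⟨X, h1, h2, hN.trans h3⟩

/-- change of the exponent `κ` at the price `4 |κ - κ'|` -/
theorem FlagSys.change {d : ℕ} {κ κ' τ c c' C δ : ℝ} {Y : Finset (E d)}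
    {F : ℕ → Finset (E d × E d)} (h : FlagSys κ τ c C δ Y F) (h0 : 0 < δ) (h1 : δ ≤ 1)
    (hc : c + 4 * |κ - κ'| ≤ c') : FlagSys κ' τ c' C δ Y F := by
  have habs : 0 ≤ |κ - κ'| := abs_nonneg _
  have hcc : c ≤ c' := by linarith
  have hm : δ ^ (-c) ≤ δ ^ (-c') := Real.rpow_le_rpow_of_exponent_ge h0 h1 (by linarith)
  have hm' : δ ^ c' ≤ δ ^ c := Real.rpow_le_rpow_of_exponent_ge h0 h1 hcc
  refine ⟨h.norm_le, h.sepY, h.anti, h.mem, h.unit, h.sepV, ?_, ?_, ?_, ?_⟩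
  · intro q hq s t ht hts hs
    refine cov_mono (h.tube q hq s t ht hts hs) ?_
    have ht0 : 0 < t := lt_of_lt_of_le (by positivity) ht
    exact mul_le_mul_of_nonneg_right hm (Real.rpow_nonneg (div_nonneg (ht0.le.trans hts) ht0.le) _)
  · intro i hi q hq s t ht hts hs
    refine pack_mono (h.rich i hi q hq s t ht hts hs) ?_
    have ht0 : 0 < t := lt_of_lt_of_le (by positivity) ht
    exact mul_le_mul_of_nonneg_right hm' (Real.rpow_nonneg (div_nonneg (ht0.le.trans hts) ht0.le) _)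
  · intro x s t ht hts hs
    refine cov_mono (h.ball x s t ht hts hs) ?_
    have ht0 : 0 < t := lt_of_lt_of_le (by positivity) ht
    have hst : 1 ≤ s / t := (one_le_div ht0).2 hts
    have hst0 : 0 < s / t := lt_of_lt_of_le one_pos hst
    have hst2 : s / t ≤ δ ^ (-2 : ℝ) := by
      rw [Real.rpow_neg h0.le, show (2:ℝ) = ((2:ℕ):ℝ) by norm_num, Real.rpow_natCast,
        div_le_iff₀ ht0]
      have : (1:ℝ) ≤ (δ ^ 2)⁻¹ * t := by
        rw [inv_mul_eq_div, one_le_div (by positivity)]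
        exact ht
      exact hs.trans this
    have e1 : (s / t) ^ (κ + τ) ≤ δ ^ (-(4 * |κ - κ'|)) * (s / t) ^ (κ' + τ) := by
      have e2 : (s / t) ^ (κ + τ) = (s / t) ^ (κ - κ') * (s / t) ^ (κ' + τ) := by
        rw [← Real.rpow_add hst0]; ring_nf
      rw [e2]
      refine mul_le_mul_of_nonneg_right ?_ (Real.rpow_nonneg hst0.le _)
      calc (s / t) ^ (κ - κ') ≤ (s / t) ^ |κ - κ'| :=
            Real.rpow_le_rpow_of_exponent_le hst (le_abs_self _)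
        _ ≤ (δ ^ (-2 : ℝ)) ^ |κ - κ'| := Real.rpow_le_rpow hst0.le hst2 habs
        _ = δ ^ (-(2 * |κ - κ'|)) := by
            rw [← Real.rpow_mul h0.le]; ring_nf
        _ ≤ δ ^ (-(4 * |κ - κ'|)) :=
            Real.rpow_le_rpow_of_exponent_ge h0 h1 (by linarith)
    calc δ ^ (-c) * (s / t) ^ (κ + τ)
        ≤ δ ^ (-c) * (δ ^ (-(4 * |κ - κ'|)) * (s / t) ^ (κ' + τ)) :=
          mul_le_mul_of_nonneg_left e1 (Real.rpow_nonneg h0.le _)
      _ = δ ^ (-c + -(4 * |κ - κ'|)) * (s / t) ^ (κ' + τ) := by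
          rw [Real.rpow_add h0]; ring
      _ ≤ δ ^ (-c') * (s / t) ^ (κ' + τ) :=
          mul_le_mul_of_nonneg_right
            (Real.rpow_le_rpow_of_exponent_ge h0 h1 (by linarith)) (Real.rpow_nonneg hst0.le _)
  · refine le_trans ?_ h.card
    have e : ∀ a : ℝ, (δ ^ 2 : ℝ) ^ a = δ ^ (2 * a) := by
      intro a
      rw [show (δ ^ 2 : ℝ) = δ ^ (2:ℝ) by norm_cast, ← Real.rpow_mul h0.le]
    rw [e, e, e, e, ← Real.rpow_add h0, ← Real.rpow_add h0, ← Real.rpow_add h0,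
      ← Real.rpow_add h0]
    refine Real.rpow_le_rpow_of_exponent_ge h0 h1 ?_
    have h2 : κ' - κ ≤ |κ - κ'| := by rw [abs_sub_comm]; exact le_abs_self _
    linarith

/-- **UNI-FLAG**: the flag theorem, uniform in `κ ∈ [k₀, k₁] ⊂ (m, m + 1)` and
`τ ∈ [τ₀, τ₁]`. -/
theorem flagU (hF : StFlag) (d m : ℕ) (k₀ k₁ τ₀ τ₁ C : ℝ) (hk0 : (m : ℝ) < k₀)
    (hk1 : k₁ < m + 1) (hτ : 0 < τ₀) (hC : 1 ≤ C) :
    ∃ c : ℝ, 0 < c ∧ ∃ δ₀ : ℝ, 0 < δ₀ ∧ δ₀ ≤ 1 ∧ ∀ κ : ℝ, k₀ ≤ κ → κ ≤ k₁ →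
    ∀ τ : ℝ, τ₀ ≤ τ → τ ≤ τ₁ → ∀ δ : ℝ, 0 < δ → δ ≤ δ₀ →
    ∀ (Y : Finset (E d)) (F : ℕ → Finset (E d × E d)), FlagSys κ τ c C δ Y F → False := by
  classical
  have key : ∀ κ : ℝ, κ ∈ Icc k₀ k₁ → ∃ c : ℝ, 0 < c ∧ ∃ δ₀ : ℝ, 0 < δ₀ ∧
      ∀ τ : ℝ, τ₀ ≤ τ → τ ≤ τ₁ → ∀ δ : ℝ, 0 < δ → δ ≤ δ₀ →
      ∀ (Y : Finset (E d)) (F : ℕ → Finset (E d × E d)), FlagSys κ τ c C δ Y F → False := by
    intro κ hκ
    exact hF d m κ τ₀ τ₁ C (lt_of_lt_of_le hk0 hκ.1) (lt_of_le_of_lt hκ.2 hk1) hτ hC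
  choose! cf hcf df hdf hFf using key
  obtain ⟨T, hcov⟩ := (isCompact_Icc (a := k₀) (b := k₁)).elim_nhds_subcover'
    (fun κ _ => Metric.ball κ (cf κ / 8))
    (fun κ hκ => Metric.ball_mem_nhds κ (by have := hcf κ hκ; positivity))
  by_cases hTe : T = ∅
  · refine ⟨1, one_pos, 1, one_pos, le_refl _, ?_⟩
    intro κ h1 h2
    exfalso
    have := hcov ⟨h1, h2⟩
    simp [hTe] at this
  · have hTne : T.Nonempty := Finset.nonempty_iff_ne_empty.2 hTe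
    obtain ⟨x₁, hx₁, hmin₁⟩ := T.exists_min_image (fun x => cf x) hTne
    obtain ⟨x₂, hx₂, hmin₂⟩ := T.exists_min_image (fun x => df x) hTne
    have hc1 : 0 < cf x₁ := hcf x₁ x₁.2
    have hd1 : 0 < df x₂ := hdf x₂ x₂.2
    refine ⟨cf x₁ / 2, by positivity, min (df x₂) 1, lt_min hd1 one_pos, min_le_right _ _, ?_⟩
    intro κ h1 h2 τ h3 h4 δ h5 h6 Y F hSys
    have h7 := hcov ⟨h1, h2⟩
    simp only [mem_iUnion, Metric.mem_ball, Real.dist_eq, exists_prop] at h7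
    obtain ⟨x, hx, hdist⟩ := h7
    have a1 : cf x₁ ≤ cf x := hmin₁ x hx
    have a2 : df x₂ ≤ df x := hmin₂ x hx
    have a3 : δ ≤ 1 := h6.trans (min_le_right _ _)
    have a4 : δ ≤ df x := (h6.trans (min_le_left _ _)).trans a2
    exact hFf x x.2 τ h3 h4 δ h5 a4 Y F (FlagSys.change hSys h5 a3 (by linarith))

end Vale.Agent.P065.H65
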