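import Vale.Agent.P118.OS.LData
import Vale.Agent.P118.H463.Main
import Vale.Agent.P118.OS.LEnd
import Vale.Agent.P118.OS.Reg
import Vale.Agent.P118.OS.Cell
import Vale.Agent.P118.OS.Dir
import Vale.Agent.P118.OF.R2S
import Vale.Agent.P118.OF.R3
import Vale.Agent.P118.OF.R4
import Vale.Agent.P118.OF.RasmS
import Vale.Agent.P065.H65.UniFlag

/-!
# P065, upper bound: the flag theorem of P118 with uniform constants (helper65)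

Small closure: only the files of P118 which are needed for `StFlag` and `StFinite`.
-/

set_option autoImplicit false

namespace Vale.Agent.P065.H65

open Vale.Agent.P118 Vale.Agent.P118.OS

/-- the finite combinatorial theorem of P118 -/
theorem stFinite : StFinite := OF.stFinite_of OF.stR2S OF.stR3 OF.R4.stR4

/-- the flag theorem of P118 -/
theorem stFlag : StFlag :=
  stLines_of stLData_of stLEnd_of stReg (stCell_of stDir) stFinite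

/-- the flag theorem, uniform in `κ ∈ [k₀, k₁] ⊂ (m, m + 1)` and `τ ∈ [τ₀, τ₁]` -/
theorem flagU_all (d m : ℕ) (k₀ k₁ τ₀ τ₁ C : ℝ) (hk0 : (m : ℝ) < k₀)
    (hk1 : k₁ < m + 1) (hτ : 0 < τ₀) (hC : 1 ≤ C) :
    ∃ c : ℝ, 0 < c ∧ ∃ δ₀ : ℝ, 0 < δ₀ ∧ δ₀ ≤ 1 ∧ ∀ κ : ℝ, k₀ ≤ κ → κ ≤ k₁ →
    ∀ τ : ℝ, τ₀ ≤ τ → τ ≤ τ₁ → ∀ δ : ℝ, 0 < δ → δ ≤ δ₀ →
    ∀ (Y : Finset (E d)) (F : ℕ → Finset (E d × E d)), FlagSys κ τ c C δ Y F → False :=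
  flagU stFlag d m k₀ k₁ τ₀ τ₁ C hk0 hk1 hτ hC

/-- the planar case `κ = τ = σ ∈ [e₀, s₁]`, `0 < e₀`, `s₁ < 1` -/
theorem flagPlane (e₀ s₁ C : ℝ) (he : 0 < e₀) (hs : s₁ < 1) (hC : 1 ≤ C) :
    ∃ c : ℝ, 0 < c ∧ ∃ δ₀ : ℝ, 0 < δ₀ ∧ δ₀ ≤ 1 ∧ ∀ σ : ℝ, e₀ ≤ σ → σ ≤ s₁ →
    ∀ δ : ℝ, 0 < δ → δ ≤ δ₀ →
    ∀ (Y : Finset (E 2)) (F : ℕ → Finset (E 2 × E 2)), FlagSys σ σ c C δ Y F → False := by
  obtain ⟨c, h1, δ₀, h2, h3, h4⟩ := flagU_all 2 0 e₀ s₁ e₀ s₁ C (by simpa using he)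
    (by simpa using hs) he hC
  exact ⟨c, h1, δ₀, h2, h3, fun σ a b δ c' d' Y F hS => h4 σ a b σ a b δ c' d' Y F hS⟩

end Vale.Agent.P065.H65
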